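-- KEEP
import Claimed.Agent.R287.Defs
import Claimed.Agent.R287.Eig
import Claimed.Agent.R287.CtP

/-!
# Row 287 (S0534), unit B2: DEFINITIONS of the top level      (helper275; moved VERBATIM from `B2.lean` sec. 0 by helper227, so that the sub-units `B2Lim`, `B2U1` can be imported by `B2.lean`)
-/

set_option autoImplicit false
open MeasureTheory ProbabilityTheory Matrix Filter Topology

namespace Claimed.Agent.R287


/-- finite data: positions labelled by the window -/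
abbrev Dat (K : ℕ) := Win K → ℝ

/-- ASCENDING eigenvalues labelled by the window -/
noncomputable def b2Eig {K : ℕ} (A : Matrix (Win K) (Win K) ℝ) : Dat K := fun i => eigD A (2 * K - i.val)

/-- one step of the chain: eigenvalues of `diag x + √Δ W`, `W = goeOf N` -/
noncomputable def b2Step {K : ℕ} (Δ : ℝ) (x : Dat K) (N : Matrix (Win K) (Win K) ℝ) : Dat K :=
  b2Eig (Matrix.diagonal x + Real.sqrt Δ • goeOf N)

/-- the kernel of the coupled chain (same noise for both coordinates) -/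
noncomputable def b2Q {K : ℕ} (Δ : ℝ) (F : Dat K × Dat K → ℝ) : Dat K × Dat K → ℝ :=
  fun p => ∫ N, F (b2Step Δ p.1 N, b2Step Δ p.2 N) ∂(gArr (Win K) (Win K))

/-- expectation of `F` after `n` steps of the coupled chain started from independent samples of `μ₁`, `μ₂` cut at `K` -/
noncomputable def b2E (μ₁ μ₂ : Measure Conf) (K : ℕ) (Δ : ℝ) (n : ℕ) (F : Dat K × Dat K → ℝ) : ℝ :=
  ∫ x, ∫ y, ((b2Q Δ)^[n] F) (cPos K x, cPos K y) ∂μ₂ ∂μ₁

/-- window average over translations of the Laplace observable -/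
noncomputable def b2Obs {K : ℕ} (h : ℝ → ℝ) (T : ℝ) (x : Dat K) : ℝ :=
  (2 * T)⁻¹ * ∫ t in (-T)..T, Real.exp (-∑ i, h (x i - t))

theorem b2_eqns_cite : True := by
  have := @b2Eig.eq_1
  have := @b2Step.eq_1
  have := @b2Q.eq_1
  have := @b2E.eq_1
  have := @b2Obs.eq_1
  trivial

/-- the trace exponent of `LReg` may be lowered -/
theorem b2_lreg_mono {ρ ξ ξ' : ℝ} {μ : Measure Conf} (hR : LReg ρ ξ μ) (h : ξ' ≤ ξ) : LReg ρ ξ' μ where
  pos := hR.pos
  lab := hR.lab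
  tr := by
    intro D
    obtain ⟨C, u₀, hC⟩ := hR.tr D
    refine ⟨C, max u₀ 1, fun e u hu => le_trans (measure_mono fun x hx => ?_) (hC e u (le_trans (le_max_left _ _) hu))⟩
    have hu1 : (1 : ℝ) ≤ u := le_trans (le_max_right _ _) hu
    exact lt_of_le_of_lt (Real.rpow_le_rpow_of_exponent_le hu1 (neg_le_neg h)) hx

/-- **(P)** of `U3_295.md`: almost sure rigidity of the labels with an exponent `χ ∈ (1/2, 1)` (S2' of helper186: `ct_lreg_creg`). -/
theorem b2_creg {ρ ξ : ℝ} {μ : Measure Conf} (hρ : 0 < ρ) (hξ : 1 / 2 < ξ) (hR : LReg ρ ξ μ) :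
    ∃ χ : ℝ, 1 / 2 < χ ∧ χ < 1 ∧ LReg ρ χ μ ∧ ∀ᵐ x ∂μ, ∃ (C₀ : ℝ) (J₀ : ℕ), CReg ρ χ C₀ J₀ x := by
  have h1 : (1 : ℝ) / 2 < min ξ (3 / 4) := lt_min hξ (by norm_num)
  have h2 : min ξ (3 / 4) < 1 := lt_of_le_of_lt (min_le_right _ _) (by norm_num)
  have hR' : LReg ρ (min ξ (3 / 4)) μ := b2_lreg_mono hR (min_le_left _ _)
  exact ⟨min ξ (3 / 4), h1, h2, hR', ct_lreg_creg hρ (by linarith) h2 hR'⟩

end Claimed.Agent.R287
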