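-- KEEP
import Claimed.Agent.R287.Defs.B2
import Claimed.Agent.R287.WL

/-!
# Row 287 (S0534), unit U3 (node `b2_pair` of B2): DEFINITIONS      (helper295; text = `origin/helper295:notes/R287/U3_295.md`)

Weights (sec. 1 of the note): `uwPhi0` = countable positive mixture of Cauchy kernels at energy `0`, heights `2^m L`;  `uwPhi = min 1 (phi0/phi0(L))` (FLAT on `[-L, L]`);
`uwPsi' = sqrt uwPhi`;  cost in `Psi`-coordinates `uwCost`;  geodesic `uwGeo` and its velocity `uwVel`;  resolvent form `uwHat` of `<e_j, phi(Z) e_j>`.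
Dissipation: `uwQ` (lower bound of `sum_i phi(lam_i) S_ij S_ik`), `uwGapD` (`d_j`), `uwCore`, `uwDis`.
Good pairs (sec. 4, 7): `ugFar`, `ugLoc`, `ugMar`, `ugGood`.   Killed chain (sec. 6, 8): `ugQ`, `ugE`.
-/

set_option autoImplicit false
open MeasureTheory ProbabilityTheory Matrix Filter Topology
open scoped ENNReal

namespace Claimed.Agent.R287

/-! ## 1. Weights -/

/-- `phi0(s) = sum_m 4^(-alpha m) eta_m^2/(s^2 + eta_m^2)`, `eta_m = 2^m L` -/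
noncomputable def uwPhi0 (L α s : ℝ) : ℝ :=
  ∑' m : ℕ, (4 : ℝ) ^ (-(α * m)) * ((2 ^ m * L) ^ 2 / (s ^ 2 + (2 ^ m * L) ^ 2))

/-- the weight: `1` on `[-L, L]`, `~ (L/|s|)^(2 alpha)` far away -/
noncomputable def uwPhi (L α s : ℝ) : ℝ := min 1 (uwPhi0 L α s / uwPhi0 L α L)

/-- `Psi(s) = int_0^s sqrt(phi)` -/
noncomputable def uwPsi (L α s : ℝ) : ℝ := ∫ r in (0 : ℝ)..s, Real.sqrt (uwPhi L α r)

/-- inverse of `Psi` -/
noncomputable def uwInv (L α : ℝ) : ℝ → ℝ := Function.invFun (uwPsi L α)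

/-- the cost `sum_j (Psi(y_j) - Psi(x_j))^2` -/
noncomputable def uwCost {J : Type} [Fintype J] (L α : ℝ) (x y : J → ℝ) : ℝ :=
  ∑ j, (uwPsi L α (y j) - uwPsi L α (x j)) ^ 2

/-- the geodesic `x^a_j = Psi^-1((1-a) Psi(x_j) + a Psi(y_j))` -/
noncomputable def uwGeo {J : Type} (L α : ℝ) (x y : J → ℝ) (a : ℝ) : J → ℝ :=
  fun j => uwInv L α ((1 - a) * uwPsi L α (x j) + a * uwPsi L α (y j))

/-- its velocity `v^a_j = (Psi(y_j) - Psi(x_j))/sqrt(phi(x^a_j))` -/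
noncomputable def uwVel {J : Type} (L α : ℝ) (x y : J → ℝ) (a : ℝ) : J → ℝ :=
  fun j => (uwPsi L α (y j) - uwPsi L α (x j)) / Real.sqrt (uwPhi L α (uwGeo L α x y a j))

/-- `phi0[Z]_j = sum_m 4^(-alpha m) eta_m Im G_jj(i eta_m)   (= <e_j, phi0(Z) e_j>)` -/
noncomputable def uwHat0 {J : Type} [Fintype J] [DecidableEq J] (L α : ℝ) (Z : Matrix J J ℝ) (j : J) : ℝ :=
  ∑' m : ℕ, (4 : ℝ) ^ (-(α * m)) * ((2 ^ m * L) * (rsv (toC Z) ⟨0, 2 ^ m * L⟩ j j).im)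

/-- `phihat[Z]_j = min 1 (phi0[Z]_j/phi0(L))   (>= <e_j, phi(Z) e_j>)` -/
noncomputable def uwHat {J : Type} [Fintype J] [DecidableEq J] (L α : ℝ) (Z : Matrix J J ℝ) (j : J) : ℝ :=
  min 1 (uwHat0 L α Z j / uwPhi0 L α L)

/-! ## 2. Dissipation -/

/-- `q = (y/Im T(z)) (|G_jk(z)| - 8/L)_+^2`, `z = e + i y` -/
noncomputable def uwQ {J : Type} [Fintype J] [DecidableEq J] (L y : ℝ) (Z : Matrix J J ℝ) (j k : J) (e : ℝ) : ℝ :=
  y / (rTr Z ⟨e, y⟩).im * (max 0 (‖rsv (toC Z) ⟨e, y⟩ j k‖ - 8 / L)) ^ 2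

/-- `d_j = delta_(j+1) - delta_j`, the difference of the `j`-th gaps of `y` and `x` -/
def uwGapD {K : ℕ} (x y : Dat K) (j : Fin (2 * K)) : ℝ :=
  (y j.succ - x j.succ) - (y j.castSucc - x j.castSucc)

/-- core pairs: both ends of the `j`-th gap of `x` are in `[-3L/4, 3L/4]` -/
def uwCore {K : ℕ} (L : ℝ) (x : Dat K) (j : Fin (2 * K)) : Prop :=
  |x j.castSucc| ≤ 3 * L / 4 ∧ |x j.succ| ≤ 3 * L / 4

open Classical in
/-- `Dis(x,y) = sum over the core pairs of d_j^2` -/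
noncomputable def uwDis {K : ℕ} (L : ℝ) (x y : Dat K) : ℝ :=
  ∑ j : Fin (2 * K), if uwCore L x j then uwGapD x y j ^ 2 else 0

open Classical in
/-- `DD^a(N) = sum over the core pairs of d_j^2 q^a_j(N)` -/
noncomputable def uwDD {K : ℕ} (L α y : ℝ) (x y' : Dat K) (a : ℝ) (N : Matrix (Win K) (Win K) ℝ) : ℝ :=
  ∑ j : Fin (2 * K), if uwCore L x j then
    uwGapD x y' j ^ 2 * uwQ L y (wlM (uwGeo L α x y' a) 1 N) j.castSucc j.succ (uwGeo L α x y' a j.castSucc) else 0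

/-! ## 3. Good pairs -/

/-- `Far(x)`: `|s_x(e + i 2^k L)| <= C1` for `e` in `(L/4) Z cap [-4L, 4L]`, all `k` -/
def ugFar {J : Type} [Fintype J] (L C₁ : ℝ) (x : J → ℝ) : Prop :=
  ∀ i : ℤ, |i| ≤ 16 → ∀ k : ℕ, ‖wlS x ⟨i * (L / 4), 2 ^ k * L⟩‖ ≤ C₁

/-- `Loc(x)`: `c1 <= Im s_x(e + i y) <= C1` for `e` in `y Z cap [-4L, 4L]` -/
def ugLoc {J : Type} [Fintype J] (L y c₁ C₁ : ℝ) (x : J → ℝ) : Prop :=
  ∀ i : ℤ, |(i : ℝ) * y| ≤ 4 * L → c₁ ≤ (wlS x ⟨i * y, y⟩).im ∧ (wlS x ⟨i * y, y⟩).im ≤ C₁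

/-- the MARGINAL part of goodness -/
def ugMar {K : ℕ} (L y c₁ C₁ : ℝ) (x : Dat K) : Prop :=
  Monotone x ∧ ugFar L C₁ x ∧ ugLoc L y c₁ C₁ x

/-- good pairs -/
def ugGood {K : ℕ} (L α y c₁ C₁ Lam : ℝ) : Set (Dat K × Dat K) :=
  {p | ugMar L y c₁ C₁ p.1 ∧ ugMar L y c₁ C₁ p.2 ∧ uwCost L α p.1 p.2 ≤ Lam ^ 2}

/-! ## 4. The killed chain (step `Delta = 1`, same noise), with values in `[0, ∞]` -/

/-- one step of the coupled chain -/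
noncomputable def ugStep {K : ℕ} (p : Dat K × Dat K) (N : Matrix (Win K) (Win K) ℝ) : Dat K × Dat K :=
  (b2Step 1 p.1 N, b2Step 1 p.2 N)

/-- the kernel killed outside `S` -/
noncomputable def ugQ {K : ℕ} (S : Set (Dat K × Dat K)) (F : Dat K × Dat K → ℝ≥0∞) : Dat K × Dat K → ℝ≥0∞ :=
  S.indicator fun p => ∫⁻ N, F (ugStep p N) ∂(gArr (Win K) (Win K))

/-- `E[ 1{p_0, .., p_(t-1) in S} F(p_t) ]`, start = independent samples of `mu1`, `mu2` cut at `K` -/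
noncomputable def ugE (μ₁ μ₂ : Measure Conf) (K : ℕ) (S : Set (Dat K × Dat K)) (t : ℕ) (F : Dat K × Dat K → ℝ≥0∞) : ℝ≥0∞ :=
  ∫⁻ x, ∫⁻ y, ((ugQ S)^[t] F) (cPos K x, cPos K y) ∂μ₂ ∂μ₁

theorem u3_defs_eqns_cite : True := by
  have := @uwPhi0.eq_1
  have := @uwPhi.eq_1
  have := @uwPsi.eq_1
  have := @uwInv.eq_1
  have := @uwCost.eq_1
  have := @uwGeo.eq_1
  have := @uwVel.eq_1
  have := @uwHat0.eq_1
  have := @uwHat.eq_1
  have := @uwQ.eq_1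
  have := @uwGapD.eq_1
  have := @uwCore.eq_1
  have := @uwDis.eq_1
  have := @uwDD.eq_1
  have := @ugFar.eq_1
  have := @ugLoc.eq_1
  have := @ugMar.eq_1
  have := @ugGood.eq_1
  have := @ugStep.eq_1
  have := @ugQ.eq_1
  have := @ugE.eq_1
  trivial

/-! ## 5. Exponents and scales -/

/-- the exponents of U3 -/
structure U3Exp where
  χ : ℝ
  α : ℝ
  κ : ℝ
  ε : ℝ
  hχ : 1 / 2 < χ
  hχ1 : χ < 1
  hα : 3 / 2 - χ < α
  hα1 : α < 1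
  hκ : 0 < κ
  hε : 0 < ε
  hb : κ + 15 * ε < 2 * χ - 1

/-- lowest height `y = L^eps` -/
noncomputable def u3Y (P : U3Exp) (L : ℝ) : ℝ := L ^ P.ε
/-- threshold of the cost: `Lam = L^((3 - 2 chi + eps)/2)` -/
noncomputable def u3Lam (P : U3Exp) (L : ℝ) : ℝ := L ^ ((3 - 2 * P.χ + P.ε) / 2)
/-- number of steps `n = ceil(L^(1-kap))` -/
noncomputable def u3N (P : U3Exp) (L : ℝ) : ℕ := ⌈L ^ (1 - P.κ)⌉₊
/-- the good pairs at scale `L` -/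
def u3S (P : U3Exp) (ρ C₁ L : ℝ) (K : ℕ) : Set (Dat K × Dat K) :=
  ugGood L P.α (u3Y P L) (Real.pi * ρ / 4) C₁ (u3Lam P L)
/-- the regular initial configurations -/
def u3A (ρ χ C₀ : ℝ) (J₀ : ℕ) : Set Conf := {x | CReg ρ χ C₀ J₀ x}

theorem u3t_eqns_cite : True := by
  have := @u3Y.eq_1
  have := @u3Lam.eq_1
  have := @u3N.eq_1
  have := @u3S.eq_1
  have := @u3A.eq_1
  trivial

end Claimed.Agent.R287
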